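import Vale.Agent.P122W36.Bridge
import Vale.Agent.P122W36.Mfd
import Vale.Agent.P122W36.Neg
import Vale.Agent.P122W36.Pos
import Vale.Agent.P122.H499.Main

open MeasureTheory Set Manifold Vale.Agent.P122W36
open scoped ENNReal ContDiff Manifold

/-- **The Fourier restriction conjecture for positively curved surfaces in three dimensions**, for
parametrised surfaces with their fundamental forms and their induced surface measure.
(1) Images of smooth embeddings of two-dimensional manifolds are surfaces, and the surfaces are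
exactly the local regular zero sets.
(2) The induced surface measure exists, is unique, is the normalised two-dimensional Hausdorff
measure on the surface, and is positive on nonempty relatively open sets.
(3) The second fundamental form is definite if and only if the Gaussian curvature is positive.
(4) The sphere and the paraboloid are positively curved surfaces.
(5) The diagonal estimate holds for all `p > 3` on every compact positively curved piece.
(6) No estimate holds for `0 < p ≤ 3` on a compact piece of positive area. -/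
theorem Vale.Agent.Results.P122.ALiteral.result :
    (∀ (N : Type) [TopologicalSpace N] [ChartedSpace R2 N] [IsManifold (𝓡 2) ∞ N] (ι : N → R3),
      IsSmoothEmbedding (𝓡 2) (𝓡 3) ∞ ι → IsSurface (range ι)) ∧
    (∀ M : Set R3, IsSurface M ↔ ∀ p ∈ M, ∃ (W : Set R3) (F : R3 → ℝ), IsOpen W ∧ p ∈ W ∧
      ContDiffOn ℝ ∞ F W ∧ M ∩ W = {x | x ∈ W ∧ F x = 0} ∧ fderiv ℝ F p ≠ 0) ∧
    (∀ M : Set R3, IsSurface M → ∀ σ : Measure R3,
      (IsSurfaceMeasure M σ ↔ σ = (Measure.euclideanHausdorffMeasure 2).restrict M) ∧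
      (IsSurfaceMeasure M σ → ∀ V : Set R3, IsOpen V → (M ∩ V).Nonempty → σ (M ∩ V) ≠ 0)) ∧
    (∀ M S : Set R3, IsSurface M → S ⊆ M → (PositivelyCurved M S ↔
      ∀ p ∈ S, ∃ U r q, IsParam M U r ∧ q ∈ U ∧ r q = p ∧ 0 < gaussCurvature r q)) ∧
    (∀ M ∈ ({Metric.sphere 0 1, {x | x 2 = x 0 ^ 2 + x 1 ^ 2}} : Set (Set R3)),
      IsSurface M ∧ PositivelyCurved M M) ∧
    ∀ (M S : Set R3) (σ : Measure R3), IsSurface M → IsSurfaceMeasure M σ → IsCompact S → S ⊆ M →
      (PositivelyCurved M S → ∀ p : ℝ≥0∞, 3 < p → Estimate S σ p p) ∧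
      (σ S ≠ 0 → ∀ p q : ℝ≥0∞, 0 < p → p ≤ 3 → ¬ Estimate S σ q p) := by
  refine ⟨fun N _ _ _ ι h => isSurface_range_of_embedding h, isSurface_iff,
    fun M hM σ => ⟨⟨fun h => hM.unique h hM.isSurfaceMeasure, fun h => h ▸ hM.isSurfaceMeasure⟩,
      fun h V hV hne => h.ne_zero hM hV hne⟩,
    fun M S hM hS => positivelyCurved_iff hM hS, ?_,
    fun M S σ hM hσ hc hS => ⟨fun h p hp => estimate_of hM hσ hc hS ?_, fun h0 p q hp0 hp => ?_⟩⟩
  · rintro M (rfl | rfl)
    · exact of_posCurved Vale.Agent.P122.FI.posCurved_sphere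
    · exact of_posCurved Vale.Agent.P122.FI.posCurved_paraboloid
  · refine Vale.Agent.P122.H499.extension_estimate (piece hM hc hS h) hp ?_
    have hp0 : p ≠ 0 := by rintro rfl; simp at hp
    rw [← ENNReal.add_div, show (2 + 1 : ℝ≥0∞) = 3 by norm_num]
    rcases eq_or_ne p ⊤ with rfl | hpt
    · simp
    · rw [ENNReal.div_lt_iff (Or.inl hp0) (Or.inl hpt), one_mul]
      exact hp
  · have := hσ.finite hM hc hS
    exact not_estimate hM hS h0 hp0 hp
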